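import Vale.Agent.P280.H399.WallAB
import Vale.Agent.P280.N2.RmWall
import Vale.Agent.P280.N2.U
import Vale.Agent.P280.H448.PolarFun
import Vale.Agent.P280.N.C01

/-! P280, stage 2: the global field `N X w - (F₀₁ X) [E₀₁, w]` of weight `-f n`, `w = E 1 n`, when
`f 1 - f n` is not a tangent weight at the point of the wall `f 1`. -/

open DirectSum Vale.Agent.P280.T Vale.Agent.P280.H127 Vale.Agent.P280.N Vale.Agent.P280.N.H989
  Vale.Agent.P280.N2

set_option linter.unusedSectionVars false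

namespace Vale.Agent.P280.H6

variable {r : ℕ} {R : Type} [CommRing R] [IsDomain R] [Algebra ℂ R]
  {𝒜 : ℕ × (Fin r → ℤ) → Submodule ℂ R} [GradedAlgebra 𝒜]

/-- The bracket of a root on the functions of degree zero. -/
theorem br_fun {N : ℤ} {χ : Fin r → ℤ} {β : (Fin r → ℤ) →+ ℤ} {E F : VF R}
    (hR : Root 𝒜 N χ β E F) {m : Fin r → ℤ} {x : FractionRing R} (hx : HK 𝒜 0 m x) :
    E (F x) - F (E x) = -((β m : ℂ) • x) := by
  obtain ⟨α, hα⟩ := hR.br
  obtain ⟨a, b, n, n', f, hf, g, hg, hg0, h1, h2, h3⟩ := hx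
  have hg0' := iK_ne_zero hg0
  have e1 := hα a n f hf
  have e2 := hα b n' g hg
  have e3 : ⁅E, F⁆ (iK g * x) = ⁅E, F⁆ (iK f) := by rw [h1]
  have hab : (a : ℂ) = (b : ℂ) := by
    have : (a : ℤ) = b := by omega
    exact_mod_cast this
  rw [Derivation.leibniz, smul_eq_mul, smul_eq_mul, e1, e2, ← h1, hab] at e3
  rw [← Derivation.commutator_apply]
  apply mul_left_cancel₀ hg0'
  rw [h3, map_sub, Int.cast_sub]
  simp only [Algebra.smul_def, map_add, map_sub] at e3 ⊢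
  linear_combination e3

theorem lie_add_vf (e v w : VF R) : ⁅e, v + w⁆ = ⁅e, v⁆ + ⁅e, w⁆ := by
  refine Derivation.ext fun x => ?_
  simp only [Derivation.commutator_apply, Derivation.add_apply, map_add]
  ring

theorem lie_sub_vf (e v w : VF R) : ⁅e, v - w⁆ = ⁅e, v⁆ - ⁅e, w⁆ := by
  refine Derivation.ext fun x => ?_
  simp only [Derivation.commutator_apply, Derivation.sub_apply, map_sub]
  ring

theorem lie_smulC_vf (a : ℂ) (e v : VF R) : ⁅e, a • v⁆ = a • ⁅e, v⁆ := by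
  refine Derivation.ext fun x => ?_
  rw [Derivation.commutator_apply, Derivation.smul_apply, Derivation.smul_apply,
    Derivation.smul_apply, Derivation.commutator_apply, Derivation.map_smul, smul_sub]

variable {N : ℤ} {n : ℕ} {f : Fin (n + 1) → Fin r → ℤ}
  {β : Fin (n + 1) → Fin (n + 1) → ((Fin r → ℤ) →+ ℤ)} {E F : Fin (n + 1) → Fin (n + 1) → VF R}
  {c : (Fin r → ℤ) →+ ℤ}

theorem idx (hn : 2 ≤ n) : (0 : Fin (n + 1)) ≠ 1 ∧ (0 : Fin (n + 1)) ≠ Fin.last n ∧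
    (1 : Fin (n + 1)) ≠ Fin.last n := by
  have v1 := one_val hn
  have v0 : ((0 : Fin (n + 1)) : ℕ) = 0 := rfl
  have vL : ((Fin.last n : Fin (n + 1)) : ℕ) = n := rfl
  refine ⟨fun h => ?_, fun h => ?_, fun h => ?_⟩ <;> (rw [Fin.ext_iff] at h; omega)

/-- `β 0 n` is nonnegative on the positive weights. -/
theorem b0L_nonneg (hA : AC 𝒜 N n f β E F) (hv : NoVec 𝒜 n f) (hc : Ch2 𝒜 n f c) {μ : Fin r → ℤ}
    (hμ : Wt 𝒜 μ) (h0 : 0 < c μ) : 0 ≤ β 0 (Fin.last n) μ := by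
  have hN := hA.N0
  obtain ⟨n01, n0L, n1L⟩ := idx hA.n2
  have b : ∀ k, β 0 (Fin.last n) (f k) =
      (if k = 0 then N else 0) - (if k = Fin.last n then N else 0) := fun k => hA.be 0 _ k n0L
  have hcL : c (f (Fin.last n)) < 0 := hc.neg _ (by rw [Fin.val_last]; exact hA.n2)
  have hc0 : 0 < c (f 0) := hc.pos.trans (H399.c01 hA hv hc)
  rcases H399.wt_cases hA hv hμ with h | ⟨i, j, hij, h | h⟩ | ⟨i, h | h⟩
  · rw [h 0 _ n0L]
  · have h1 : i ≠ Fin.last n := fun h1 => absurd (Fin.le_last j) (not_le.2 (h1 ▸ hij))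
    have h2 : j ≠ 0 := fun h2 => absurd (Fin.zero_le i) (not_le.2 (h2 ▸ hij))
    rw [h, map_sub, b, b, if_neg h1, if_neg h2]
    split_ifs <;> omega
  · exfalso
    have h1 := hc.ord i j hij
    rw [h, map_neg, map_sub] at h0
    omega
  · have h1 : i ≠ Fin.last n := by
      rintro rfl
      rw [h] at h0
      omega
    rw [h, b, if_neg h1]
    split_ifs <;> omega
  · have h1 : i ≠ 0 := by
      rintro rfl
      rw [h, map_neg] at h0
      omega
    rw [h, map_neg, b, if_neg h1]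
    split_ifs <;> omega

/-- The field of the root `f 0 - f 1` kills the regular functions of weight `f 1`. -/
theorem E01_zero (H : Hyp 𝒜) (hA : AC 𝒜 N n f β E F) (hv : NoVec 𝒜 n f) (hc : Ch2 𝒜 n f c)
    {p : FP 𝒜} (hp : Pos c p) {x : FractionRing R} (hx : HK 𝒜 0 (f 1) x) (hr : Rg p.q x) :
    E 0 1 x = 0 := by
  have hN := hA.N0
  obtain ⟨n01, n0L, n1L⟩ := idx hA.n2
  have hR := hA.root 0 1 n01
  refine lf1 H p (β 0 (Fin.last n)) (fun ψ hψ => ?_) (hR.hvE.app hx) (hR.globE.rgV.rg hr) ?_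
  · exact b0L_nonneg hA hv hc ⟨p, hψ⟩
      (lt_of_le_of_ne (hp ψ hψ) (hc.ne ψ ⟨p, hψ⟩).symm)
  · rw [map_sub, map_sub, hA.be 0 _ 1 n0L, hA.be 0 _ 0 n0L, if_neg n01.symm, if_neg n1L,
      if_pos rfl, if_neg n0L]
    omega

/-- The fields of weight `f 0 - f n` commute with the field of the root `f 0 - f 1`. -/
theorem lie_zero (H : Hyp 𝒜) (hA : AC 𝒜 N n f β E F) {D : VF R} (hD : Glob D)
    (hDv : HV 𝒜 (f 0 - f (Fin.last n)) D) : ⁅E 0 1, D⁆ = 0 := by
  have hN := hA.N0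
  obtain ⟨n01, n0L, n1L⟩ := idx hA.n2
  have hR := hA.root 0 1 n01
  by_contra hne
  have h1 := hull_field H (β 0 1) (a := 2 * N) (by omega) (fun ω hω => by
    by_cases h1 : ω = f 0 - f 1
    · rw [h1, hR.two]
    · by_cases h2 : ω = -(f 0 - f 1)
      · rw [h2, map_neg, hR.two]
        omega
      · have := (abs_le.1 (hR.bd ω hω h1 h2)).2
        omega) (hR.globE.lie hD) (hR.hvE.lie hDv) hne
  rw [map_add, hR.two, map_sub, hA.be 0 1 0 n01, hA.be 0 1 _ n01, if_pos rfl, if_neg n01,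
    if_neg n0L.symm, if_neg n1L.symm] at h1
  omega

theorem f_ne (hA : AC 𝒜 N n f β E F) (i : Fin (n + 1)) : f i ≠ 0 := by
  have hN := hA.N0
  obtain ⟨n01, n0L, n1L⟩ := idx hA.n2
  intro h0
  have key : ∀ j, j ≠ i → False := fun j hj => by
    have h1 := hA.be i j i hj.symm
    rw [h0, map_zero, if_pos rfl, if_neg hj.symm] at h1
    omega
  by_cases hi : i = 0
  · exact key 1 (by rw [hi]; exact n01.symm)
  · exact key 0 (fun h => hi h.symm)

section
variable (H : Hyp 𝒜) (hA : AC 𝒜 N n f β E F) (hv : NoVec 𝒜 n f) (hc : Ch2 𝒜 n f c)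
include H hA hv hc

/-- A function of weight `f 1` which is regular at the source has a pole only on the wall `f 1`. -/
theorem X_pole {X : FractionRing R} (hX : HK 𝒜 0 (f 1) X) {y : FP 𝒜} {b : Fin r → ℤ}
    (hb : y.Pi (-b)) (hcb : 0 < c b) (hoth : ∀ ψ, y.Pi ψ → ψ ≠ -b → 0 < c ψ)
    (hk : ∀ d z, Crd y (-b) d z → ∃ k : ℕ, Rg y.q ((iK z) ^ k * X)) (hn : ¬ Rg y.q X) :
    b = f 1 := by
  obtain ⟨d, z, hz⟩ := N2.exists_crd hb (fun h0 => by
    rw [neg_eq_zero.1 h0, map_zero] at hcb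
    exact lt_irrefl _ hcb)
  obtain ⟨k, hk⟩ := hk d z hz
  obtain ⟨l, M, hl, hM, he⟩ := H900.xmon H y hz hX hk hn
  exact (rel_fun1 H hA hv hc hb hcb hoth hl hM (by rw [he, zero_smul, zero_add])).2.1


/-- The field is regular at the source points. -/
theorem B_src {X : FractionRing R} (hX : HK 𝒜 0 (f 1) X) {p : FP 𝒜} (hp : Pos c p)
    (hXp : Rg p.q X) {y : FP 𝒜} (hy : Pos c y) : Rg y.q X :=
  A04.same_rg H (pos_unique H c hc.ne hp hy) hX hXp

theorem glob_B {X : FractionRing R} (hX : HK 𝒜 0 (f 1) X) {p q : FP 𝒜}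
    (hp : Pos c p) (hXp : Rg p.q X) (hq1 : q.Pi (-f 1)) (hq : ∀ ψ, q.Pi ψ → ψ ≠ -f 1 → 0 < c ψ)
    (hno : ¬ q.Pi (f 1 - f (Fin.last n))) {w w' B : VF R} (hw : Glob w)
    (hwv : HV 𝒜 (f 1 - f (Fin.last n)) w) (hw' : w' = ⁅E 0 1, w⁆)
    (hB : B = (N : ℂ) • (X • w) - (F 0 1 X) • w') : Glob B ∧ HV 𝒜 (-f (Fin.last n)) B := by
  have hN := hA.N0
  obtain ⟨n01, n0L, n1L⟩ := idx hA.n2
  have hR := hA.root 0 1 n01
  have hNC : (N : ℂ) ≠ 0 := by exact_mod_cast hN.ne'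
  have hXa : ∀ y : FP 𝒜, Pos c y → Rg y.q X := fun y hy => B_src H hA hv hc hX hp hXp hy
  have hX' : HK 𝒜 0 (f 0) (F 0 1 X) := (hR.hvF.app hX).cast rfl (by abel)
  have hE0 : E 0 1 X = 0 := E01_zero H hA hv hc hp hX hXp
  have hE1 : E 0 1 (F 0 1 X) = (N : ℂ) • X := by
    have h1 := br_fun hR hX
    rw [hE0, map_zero, sub_zero, hA.be 0 1 1 n01, if_neg n01.symm, if_pos rfl, zero_sub,
      Int.cast_neg, neg_smul, neg_neg] at h1
    exact h1
  have hw'g : Glob w' := by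
    rw [hw']
    exact hR.globE.lie hw
  have hw'v : HV 𝒜 (f 0 - f (Fin.last n)) w' := by
    rw [hw']
    exact (hR.hvE.lie hwv).cast (by abel)
  have hBv : HV 𝒜 (-f (Fin.last n)) B := by
    rw [hB]
    exact (((HV.smul hX hwv).cast (by abel)).smulC _).sub ((HV.smul hX' hw'v).cast (by abel))
  have hlie : ⁅E 0 1, B⁆ = 0 := by
    have h1 : ⁅E 0 1, w'⁆ = 0 := lie_zero H hA hw'g hw'v
    rw [hB, lie_sub_vf, lie_smulC_vf, lie_smul_vf, lie_smul_vf, hE0, hE1, h1, ← hw', zero_smul, zero_add,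
      smul_zero, add_zero, smul_assoc, sub_self]
  -- the field is regular where `X` is
  have hreg : ∀ y : FP 𝒜, Rg y.q X → RgV y.q B := by
    intro y hy
    rw [hB]
    exact (RgV.smulC _ (RgV.smul hy hw.rgV)).sub (RgV.smul (hR.globF.rgV.rg hy) hw'g.rgV)
  refine ⟨?_, hBv⟩
  by_contra hnG
  obtain ⟨y, b, hb, hcb, hoth, hnr, hk⟩ := H399.lowest_field H c hc.ne
    (neg_ne_zero.2 (f_ne hA _)) hBv (fun y0 hy0 => hreg y0 (hXa y0 hy0)) hnG
  have hXn : ¬ Rg y.q X := fun h => hnr (hreg y h)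
  obtain ⟨d, z, hz⟩ := N2.exists_crd hb (fun h0 => by
    rw [neg_eq_zero.1 h0, map_zero] at hcb
    exact lt_irrefl _ hcb)
  obtain ⟨ρ, g0, g1, hρ, hρv, hg0, hg1, hg00, hg10, he⟩ := rm_wall H hA hv hc hb hcb hoth hBv hk
  have hg1z : g1 = 0 := by
    refine hg10 ?_
    by_cases hb1 : b = f 1
    · left
      subst hb1
      exact fun h => hno (((same_pi (H399.uniqA hA hv hc H hb hoth hq1 hq) H).2 _).1 h)
    · exact Or.inr hb1
  rw [hg1z, zero_smul, add_zero] at he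
  by_cases hy0 : y.Pi (f 0 - f (Fin.last n))
  swap
  · rw [hg00 hy0, zero_smul, add_zero] at he
    exact hnr (he ▸ hρ)
  have hR0 := hA.root 0 (Fin.last n) n0L
  have hlf : ∀ g : FractionRing R, RgV y.q (g • E 0 (Fin.last n)) → Rg y.q g := by
    intro g hg
    have h1 := lf5 H y (N2.ind_sub hA (q := y) (fun _ : Unit => (0 : Fin (n + 1)))
      (fun _ _ _ => rfl) (fun _ => n0L) (fun _ => hy0)) (fun _ => g) (by simpa using hg)
    exact h1 ()
  have hEg : Rg y.q (E 0 1 g0) := by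
    apply hlf
    have h1 : ⁅E 0 1, B⁆ = ⁅E 0 1, ρ⁆ + (E 0 1 g0) • E 0 (Fin.last n) := by
      rw [he, lie_add_vf, lie_smul_vf, lie_zero H hA hR0.globE hR0.hvE, smul_zero, add_zero]
    rw [hlie] at h1
    rw [← neg_eq_of_add_eq_zero_right h1.symm]
    exact (hR.globE.rgV.lie hρ).neg
  have hg0n : ¬ Rg y.q g0 := fun h => hnr (by
    rw [he]
    exact hρ.add (RgV.smul h hR0.globE.rgV))
  obtain ⟨k, hk⟩ := hk d z hz
  have hkg : Rg y.q ((iK z) ^ k * g0) := by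
    apply hlf
    have h1 : ((iK z) ^ k * g0) • E 0 (Fin.last n) = (iK z) ^ k • B - (iK z) ^ k • ρ := by
      rw [he, smul_add, add_sub_cancel_left, smul_smul]
    rw [h1]
    exact hk.sub (RgV.smul ((Rg.iK z).pow k) hρ)
  obtain ⟨l, M, hl, hM, hf0⟩ := H900.xmon H y hz hg0 hkg hg0n
  rw [zero_smul, zero_add] at hf0
  obtain ⟨-, ⟨hb1, -⟩ | ⟨hb1, -⟩⟩ := rel_fun0 H hA hv hc hb hcb hoth hl hM hf0
  · -- the wall `f 1`
    subst hb1
    have hX'n : ¬ Rg y.q (F 0 1 X) := fun h => hXn (by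
      have h1 : Rg y.q ((N : ℂ) • X) := by
        rw [← hE1]
        exact hR.globE.rgV.rg h
      have h2 := h1.smul (N : ℂ)⁻¹
      rwa [smul_smul, inv_mul_cancel₀ hNC, one_smul] at h2)
    obtain ⟨k', hk'⟩ := H399.wallA_fun hA hv hc H hb hoth hX'
      (fun y0 hy0 => hR.globF.rgV.rg (hXa y0 hy0)) d z hz
    obtain ⟨α, hα⟩ := H448.polar_one_fun H y c hoth hz [f 0 - f 1] (fun l L h1 h2 h3 => by
      rw [zero_smul, zero_add] at h3
      obtain ⟨h4, h5 | h5⟩ := rel_fun0 H hA hv hc hb hcb hoth h1 h2 h3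
      · exact ⟨h4, by rw [h5.2]⟩
      · exact absurd h5.1 (f1_ne hA)) hg0 hX' hkg hk' hX'n
    have h1 := hR.globE.rgV.rg hα
    rw [map_sub, Derivation.map_smul, hE1] at h1
    have h2 : Rg y.q (α • (N : ℂ) • X) := by
      have h3 := hEg.sub h1
      rwa [sub_sub_cancel] at h3
    by_cases hα0 : α = 0
    · rw [hα0, zero_smul, sub_zero] at hα
      exact hg0n hα
    · apply hXn
      have h3 := (h2.smul α⁻¹).smul (N : ℂ)⁻¹
      rwa [smul_smul α⁻¹ α, inv_mul_cancel₀ hα0, one_smul, smul_smul, inv_mul_cancel₀ hNC,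
        one_smul] at h3
  · -- the wall `f 0 - f 1`
    subst hb1
    refine f1_ne hA (X_pole H hA hv hc hX hb hcb hoth ?_ hXn).symm
    exact H399.wallB_fun hA hv hc H hb hoth hX hXa

end

/-- **(b)** There is a global field of weight `-f n` which vanishes at the source and which does
not vanish along the curve from the point of the wall `f 1` to the source. -/
theorem fieldB (H : Hyp 𝒜) (hA : AC 𝒜 N n f β E F) (hv : NoVec 𝒜 n f) (hc : Ch2 𝒜 n f c)
    {p q : FP 𝒜} (hp : Pos c p) (hq1 : q.Pi (-f 1)) (hq : ∀ ψ, q.Pi ψ → ψ ≠ -f 1 → 0 < c ψ)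
    (hno : ¬ q.Pi (f 1 - f (Fin.last n))) {m : ℕ} {φ : R →ₐ[ℂ] Polynomial ℂ}
    (hφ : Curve q p (-f 1) m φ) :
    ∃ D : VF R, Glob D ∧ HV 𝒜 (-f (Fin.last n)) D ∧ NZ φ D ∧ ValV p.q D 0 := by
  have hN := hA.N0
  obtain ⟨n01, n0L, n1L⟩ := idx hA.n2
  have hR := hA.root 0 1 n01
  have hR1 := hA.root 1 (Fin.last n) n1L
  have hNC : (N : ℂ) ≠ 0 := by exact_mod_cast hN.ne'
  obtain ⟨d, h0, hh0, hco⟩ := hφ.un'
  rw [sub_neg_eq_add] at hh0
  have hφh0 : φ h0 ≠ 0 := by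
    intro h
    rw [h, Polynomial.coeff_zero] at hco
    exact hco rfl
  obtain ⟨g0, hg0, hpg0⟩ := exists_deg_one_ne H.hX.gen p.nv p.fix
  have hφg0 : φ g0 ≠ 0 := by
    intro h
    have h1 := hφ.ev' 1 _ g0 hg0
    rw [h, Polynomial.coeff_zero] at h1
    exact hpg0 h1.symm
  have hg00 : iK g0 ≠ 0 := iK_ne_zero (ne_zero_of_q hpg0)
  obtain ⟨X, hXd⟩ : ∃ X : FractionRing R, X = iK h0 * (iK g0 ^ d)⁻¹ := ⟨_, rfl⟩
  have hgd : g0 ^ d ∈ 𝒜 (d, d • p.ν) := by
    have h1 := SetLike.pow_mem_graded d hg0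
    have e : d • ((1, p.ν) : ℕ × (Fin r → ℤ)) = (d, d • p.ν) := by
      ext <;> simp
    rwa [e] at h1
  have hX : HK 𝒜 0 (f 1) X := by
    rw [hXd, ← iK_pow]
    exact ((HK.ofR hh0).mul ((HK.ofR hgd).inv (by rw [iK_pow]; exact pow_ne_zero _ hg00))).cast
      (by ring) (by abel)
  have hXp : Rg p.q X := by
    rw [hXd]
    exact (Rg.iK h0).mul (((Val.iK g0).pow d).inv (pow_ne_zero _ hpg0)).rg
  have hXg : X * iK g0 ^ d = iK h0 := by
    rw [hXd, mul_assoc, inv_mul_cancel₀ (pow_ne_zero _ hg00), mul_one]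
  obtain ⟨w', hw'⟩ : ∃ w' : VF R, w' = ⁅E 0 1, E 1 (Fin.last n)⁆ := ⟨_, rfl⟩
  obtain ⟨B, hB⟩ : ∃ B : VF R, B = (N : ℂ) • (X • E 1 (Fin.last n)) - (F 0 1 X) • w' := ⟨_, rfl⟩
  obtain ⟨hBg, hBv⟩ := glob_B H hA hv hc hX hp hXp hq1 hq hno hR1.globE hR1.hvE hw' hB
  have hw'g : Glob w' := by
    rw [hw']
    exact hR.globE.lie hR1.globE
  have hX' : HK 𝒜 0 (f 0) (F 0 1 X) := (hR.hvF.app hX).cast rfl (by abel)
  have hXp' : Rg p.q (F 0 1 X) := hR.globF.rgV.rg hXp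
  refine ⟨B, hBg, hBv, ?_, ?_⟩
  · -- the tangent weight `f 1 - f n` at the source
    have hpi : p.Pi (f 1 - f (Fin.last n)) := by
      by_contra hcon
      have hp1 : p.Pi (f 1) := by simpa using hφ.ya'
      have hRL := hA.root (Fin.last n) 1 n1L.symm
      have h1 := H155.nef_string0 H hN (H155.toRoot0 hRL) hRL.int p
        (by rw [neg_sub]; exact hcon) hp1 (by
          rw [hA.be _ _ 1 n1L.symm, if_neg n1L, if_pos rfl]
          omega)
      rw [add_sub_cancel] at h1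
      have h2 := hp _ h1
      have h3 := hc.neg (Fin.last n) (by rw [Fin.val_last]; exact hA.n2)
      omega
    obtain ⟨h1, g1, hg1, hφg1⟩ := nz_of_val hφ hR1.globE hR1.hvE (Or.inr (hR1.atE p hpi))
    obtain ⟨a, ha⟩ := hBg h1
    obtain ⟨g2, hg2⟩ := hw'g h1
    obtain ⟨b0, hb0⟩ := hR.globF h0
    obtain ⟨b1, hb1⟩ := hR.globF g0
    -- the numerator of `F 0 1 X`
    have he0 : iK (b0 * g0 - (d : ℂ) • (h0 * b1)) = iK g0 ^ (d + 1) * F 0 1 X := by
      have h3 : F 0 1 (X * iK g0 ^ d) = iK b0 := by rw [hXg, hb0]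
      rw [Derivation.leibniz, Derivation.leibniz_pow, hb1, smul_eq_mul, smul_eq_mul, smul_eq_mul,
        nsmul_eq_mul] at h3
      have h4 : (d : FractionRing R) * iK g0 ^ (d - 1) * iK g0 = d * iK g0 ^ d := by
        rcases Nat.eq_zero_or_pos d with h5 | h5
        · simp [h5]
        · obtain ⟨k, rfl⟩ := Nat.exists_eq_succ_of_ne_zero h5.ne'
          rw [Nat.succ_sub_one, mul_assoc, ← pow_succ]
      rw [iK_sub, iK_smul, iK_mul, iK_mul, ← hXg, ← h3, Algebra.smul_def, map_natCast, pow_succ]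
      linear_combination (X * iK b1) * h4
    have he0m : b0 * g0 - (d : ℂ) • (h0 * b1) ∈ 𝒜 (d + 1, (d + 1) • p.ν + f 0) := by
      have h3 : HK 𝒜 ((d + 1 : ℕ) : ℤ) ((d + 1) • p.ν + f 0)
          (iK (b0 * g0 - (d : ℂ) • (h0 * b1))) := by
        rw [he0, pow_succ, ← iK_pow]
        exact (((HK.ofR hgd).mul (HK.ofR hg0)).mul hX').cast (by push_cast; ring)
          (by rw [add_smul, one_smul])
      exact h3.mem
    have hφe : φ (b0 * g0 - (d : ℂ) • (h0 * b1)) = 0 := by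
      by_contra hne
      obtain ⟨i, -, h4, -⟩ := hφ.hom _ _ _ he0m hne
      rw [hφ.nu] at h4
      have h5 := congrArg (β 0 (Fin.last n)) h4
      have e0 : β 0 (Fin.last n) (f 0) = N := by
        rw [hA.be 0 _ 0 n0L, if_pos rfl, if_neg n0L, sub_zero]
      have e1 : β 0 (Fin.last n) (f 1) = 0 := by
        rw [hA.be 0 _ 1 n0L, if_neg n01.symm, if_neg n1L, sub_zero]
      rw [map_add, map_add, map_nsmul, map_nsmul, map_nsmul, map_add, map_nsmul, map_neg, e0, e1,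
        neg_zero, smul_zero, smul_zero, add_zero, add_zero] at h5
      omega
    refine ⟨h1, a, ha, fun hφa => ?_⟩
    have h6 : iK (g0 ^ (d + 1) * a) =
        iK ((N : ℂ) • (g0 * h0 * g1) - (b0 * g0 - (d : ℂ) • (h0 * b1)) * g2) := by
      rw [iK_mul, ← ha, hB, Derivation.sub_apply, Derivation.smul_apply, Derivation.smul_apply,
        Derivation.smul_apply, hg1, hg2, iK_sub (R := R) ((N : ℂ) • _), iK_smul, iK_mul _ g2, he0,
        iK_mul _ g1, iK_mul g0 h0, ← hXg, iK_pow, smul_eq_mul, smul_eq_mul, Algebra.smul_def,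
        Algebra.smul_def]
      ring
    have h7 := congrArg φ (iK_inj h6)
    rw [map_mul, hφa, mul_zero, map_sub, map_mul φ _ g2, hφe, zero_mul, sub_zero, map_smul,
      map_mul, map_mul] at h7
    exact smul_ne_zero hNC (mul_ne_zero (mul_ne_zero hφg0 hφh0) hφg1) h7.symm
  · -- the value at the source
    have hv1 : Val p.q X 0 := val_zero p hX hXp (by
      rw [zero_smul]
      exact f_ne hA 1)
    have hv2 : Val p.q (F 0 1 X) 0 := val_zero p hX' hXp' (by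
      rw [zero_smul]
      exact f_ne hA 0)
    obtain ⟨t, ht⟩ := hR1.globE.rgV.val (q := p.q)
    obtain ⟨t', ht'⟩ := hw'g.rgV.val (q := p.q)
    have h1 := (ValV.smulC (N : ℂ) (ValV.smul hv1 ht)).sub (ValV.smul hv2 ht')
    rw [zero_smul, zero_smul, smul_zero, sub_zero] at h1
    rw [hB]
    exact h1

end Vale.Agent.P280.H6
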